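import Vale.Agent.P235.H786.TDefs

/-!
# A connected set meets a bag in a connected set of the torso (helper810)
-/

set_option autoImplicit false

namespace Vale.Agent.P235.H810

open SimpleGraph

/-- `s` and `r` are joined in `T - t` -/
def Off {ι : Type} (T : SimpleGraph ι) (t s r : ι) : Prop := ∃ p : T.Walk s r, t ∉ p.support

lemma Off.trans {ι : Type} {T : SimpleGraph ι} {t a b c : ι} (h : Off T t a b) (h' : Off T t b c) :
    Off T t a c := by
  obtain ⟨p, hp⟩ := h
  obtain ⟨q, hq⟩ := h'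
  refine ⟨p.append q, ?_⟩
  rw [Walk.mem_support_append_iff]
  exact not_or.mpr ⟨hp, hq⟩

lemma Off.symm {ι : Type} {T : SimpleGraph ι} {t a b : ι} (h : Off T t a b) : Off T t b a := by
  obtain ⟨p, hp⟩ := h
  refine ⟨p.reverse, ?_⟩
  rwa [Walk.support_reverse, List.mem_reverse]

lemma off_walk {ι : Type} {T : SimpleGraph ι} {S : Set ι} {t : ι} {a b : S}
    (p : (T.induce S).Walk a b) (h : ∀ x ∈ p.support, x.1 ≠ t) : Off T t a.1 b.1 := by
  induction p with
  | @nil a => exact ⟨Walk.nil, by simpa using (h a (by simp)).symm⟩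
  | @cons a b c e q ih =>
    obtain ⟨p, hp⟩ := ih fun x hx => h x (by simp [hx])
    have e' : T.Adj a.1 b.1 := e
    refine ⟨Walk.cons e' p, ?_⟩
    rw [Walk.support_cons, List.mem_cons]
    exact not_or.mpr ⟨(h a (by simp)).symm, hp⟩

/-- a connected set of nodes which misses `t` -/
lemma off_of {ι : Type} {T : SimpleGraph ι} {S : Set ι} (hS : (T.induce S).Preconnected)
    {t r s : ι} (ht : t ∉ S) (hr : r ∈ S) (hs : s ∈ S) : Off T t r s := by
  obtain ⟨p⟩ := hS ⟨r, hr⟩ ⟨s, hs⟩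
  exact off_walk p fun x _ hx => ht (hx ▸ x.2)

/-- a connected set of nodes which contains `t` and `r` contains the gate of `t` towards `r` -/
lemma gate_of {ι : Type} {T : SimpleGraph ι} {S : Set ι} (hS : (T.induce S).Preconnected)
    {t r : ι} (ht : t ∈ S) (hr : r ∈ S) (hne : r ≠ t) : ∃ s, T.Adj t s ∧ s ∈ S ∧ Off T t s r := by
  classical
  obtain ⟨p, hp⟩ := (hS ⟨t, ht⟩ ⟨r, hr⟩).exists_isPath
  cases p with
  | nil => exact absurd rfl hne
  | @cons _ s _ h q =>
    rw [Walk.cons_isPath_iff] at hp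
    refine ⟨s.1, h, s.2, off_walk q fun x hx hx' => hp.2 ?_⟩
    have : x = ⟨t, ht⟩ := Subtype.ext hx'
    exact this ▸ hx

/-- two gates of `t` which are joined off `t` are equal -/
lemma gate_unique {ι : Type} {T : SimpleGraph ι} (hT : T.IsAcyclic) {t s s' : ι}
    (h : T.Adj t s) (h' : T.Adj t s') (ho : Off T t s s') : s = s' := by
  classical
  obtain ⟨p, hp⟩ := ho
  have hq : (Walk.cons h p.bypass).IsPath := by
    rw [Walk.cons_isPath_iff]
    exact ⟨p.bypass_isPath, fun hh => hp (Walk.support_bypass_subset_support p hh)⟩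
  have hq' : (Walk.cons h' (Walk.nil : T.Walk s' s')).IsPath := by
    rw [Walk.cons_isPath_iff]
    refine ⟨Walk.IsPath.nil, ?_⟩
    simpa using h'.ne
  have e := congrArg (fun q : T.Path t s' => q.1.length) ((hT.subsingleton_path _ _).elim ⟨_, hq⟩ ⟨_, hq'⟩)
  simp only [Walk.length_cons, Walk.length_nil] at e
  exact Walk.eq_of_length_eq_zero (by omega : p.bypass.length = 0)

open Vale.Agent.P235.H786 in
/-- (CONN) -/
theorem conn : ConnStmt := by
  intro V ι _ _ G T B t A hD hA hne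
  have : Nonempty ↥(A ∩ B t) := hne.to_subtype
  refine ⟨fun x y => ?_⟩
  have key : ∀ (v : V) (hvA : v ∈ A) (hv : v ∈ B t) (a b : A)
      (_ : (G.induce A).Walk a b) (_ : b.1 = v),
      (∀ h : a.1 ∈ B t, ((tor G T B t).induce (A ∩ B t)).Reachable ⟨a.1, a.2, h⟩ ⟨v, hvA, hv⟩) ∧
      (a.1 ∉ B t → ∃ (s r : ι) (z : V) (hz : z ∈ A ∩ B t), T.Adj t s ∧ z ∈ B s ∧
        ((tor G T B t).induce (A ∩ B t)).Reachable ⟨z, hz⟩ ⟨v, hvA, hv⟩ ∧ a.1 ∈ B r ∧
        Off T t s r) := by
    intro v hvA hv a b p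
    induction p with
    | @nil a =>
      rintro rfl
      exact ⟨fun _ => Reachable.refl _, fun h => absurd hv h⟩
    | @cons a a' b e q ih =>
      intro hb
      obtain ⟨ih1, ih2⟩ := ih hb
      have e' : G.Adj a.1 a'.1 := e
      obtain ⟨r0, hr0, hr0'⟩ := hD.edge _ _ e'
      constructor
      · intro ha
        by_cases ha' : a'.1 ∈ B t
        · refine Reachable.trans (Adj.reachable ?_) (ih1 ha')
          exact ⟨e'.ne, ha, ha', Or.inl e'⟩
        · obtain ⟨s, r, z, hz, hs, hzs, hzv, har, ho⟩ := ih2 ha'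
          have ho' : Off T t r r0 := off_of (hD.conn a'.1) ha' har hr0'
          have hrt : r0 ≠ t := fun h => ha' (h ▸ hr0')
          obtain ⟨s', hs', hs'', ho''⟩ := gate_of (hD.conn a.1) ha hr0 hrt
          have : s = s' := gate_unique hD.tree.isAcyclic hs hs' ((ho.trans ho').trans ho''.symm)
          subst this
          by_cases haz : a.1 = z
          · subst haz
            exact hzv
          · refine Reachable.trans (Adj.reachable ?_) hzv
            exact ⟨haz, ha, hz.2, Or.inr ⟨s, hs, hs'', hzs⟩⟩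
      · intro ha
        have hrt : r0 ≠ t := fun h => ha (h ▸ hr0)
        by_cases ha' : a'.1 ∈ B t
        · obtain ⟨s, hs, hs', ho⟩ := gate_of (hD.conn a'.1) ha' hr0' hrt
          exact ⟨s, r0, a'.1, ⟨a'.2, ha'⟩, hs, hs', ih1 ha', hr0, ho⟩
        · obtain ⟨s, r, z, hz, hs, hzs, hzv, har, ho⟩ := ih2 ha'
          exact ⟨s, r0, z, hz, hs, hzs, hzv, hr0,
            ho.trans (off_of (hD.conn a'.1) ha' har hr0')⟩
  obtain ⟨p⟩ := hA.preconnected ⟨x.1, x.2.1⟩ ⟨y.1, y.2.1⟩
  exact (key y.1 y.2.1 y.2.2 _ _ p rfl).1 x.2.2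

end Vale.Agent.P235.H810
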